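import Vale.Agent.P028.F53.RadNat
import Vale.Agent.P028.H359.Carleson

/-!
# The energy of the charged pairs (natural statement and Carleson embedding)
-/

namespace Vale.P028.RN

open Finset

section Local

variable {Z κ : Type*} [Fintype Z] [DecidableEq κ]

/-- the average over the class of `y` -/
noncomputable def lav (ρ : Z → ℝ) (β : Z → κ) (x : Z → ℝ) (y : Z) : ℝ :=
  (∑ z, ρ z * (x z * (if β z = β y then 1 else 0))) / ∑ z, ρ z * (if β z = β y then 1 else 0)

theorem lav_sum {ρ : Z → ℝ} (hρ : ∀ z, 0 ≤ ρ z) (β : Z → κ) (x G : Z → ℝ)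
    (hG : ∀ y z, β y = β z → G y = G z) :
    ∑ y, ρ y * (lav ρ β x y * G y) = ∑ y, ρ y * (x y * G y) := by
  classical
  unfold lav
  have e1 : ∀ y, ρ y * ((∑ z, ρ z * (x z * (if β z = β y then 1 else 0))) /
        (∑ z, ρ z * (if β z = β y then 1 else 0)) * G y) =
      ∑ z, ρ z * x z * (G z * (ρ y * (if β y = β z then 1 else 0) /
        ∑ w, ρ w * (if β w = β z then 1 else 0))) := by
    intro y
    rw [sum_div, sum_mul, mul_sum]
    refine sum_congr rfl fun z _ => ?_
    by_cases h : β z = β y
    · rw [hG y z h.symm, h]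
      simp only [if_true]
      ring
    · rw [if_neg h, if_neg (Ne.symm h)]
      simp
  rw [sum_congr rfl fun y _ => e1 y, sum_comm]
  refine sum_congr rfl fun z _ => ?_
  rw [← mul_sum, ← mul_sum, ← sum_div]
  rcases (hρ z).eq_or_lt with h0 | h0
  · rw [← h0]
    ring
  · have h2 : 0 < ∑ w, ρ w * (if β w = β z then 1 else 0) := by
      refine lt_of_lt_of_le h0 ?_
      have := single_le_sum (f := fun w => ρ w * (if β w = β z then (1 : ℝ) else 0))
        (fun w _ => mul_nonneg (hρ w) (by split_ifs <;> norm_num)) (mem_univ z)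
      simpa using this
    rw [div_self h2.ne']
    ring

/-- charged pairs of one future -/
theorem local_energy {ρ : Z → ℝ} (hρ : ∀ z, 0 ≤ ρ z) (A β : Z → κ) (τ x : Z → ℝ)
    (hτ0 : ∀ z, 0 ≤ τ z) (hβA : ∀ y z, β y = β z → A y = A z)
    (hτ : ∀ y z, A y = A z → τ y = τ z) :
    ∑ y, ρ y * (τ y * x y * ∑ z, ρ z * (x z * (if A z = A y ∧ β z ≠ β y then 1 else 0))) ≤
      ∑ y, ρ y * (τ y * lav ρ β x y ^ 2 * (∑ z, ρ z * (if A z = A y then 1 else 0) -
        ∑ z, ρ z * (if β z = β y then 1 else 0))) := by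
  classical
  set W : Z → Z → ℝ := fun y z => τ y * (if A z = A y ∧ β z ≠ β y then 1 else 0) with hW
  have W0 : ∀ y z, 0 ≤ W y z := fun y z => mul_nonneg (hτ0 y) (by split_ifs <;> norm_num)
  have Wsymm : ∀ y z, W y z = W z y := by
    intro y z
    rw [hW]
    simp only
    by_cases h : A z = A y ∧ β z ≠ β y
    · rw [if_pos h, if_pos ⟨h.1.symm, h.2.symm⟩, hτ y z h.1.symm]
    · rw [if_neg h, if_neg (fun h' => h ⟨h'.1.symm, h'.2.symm⟩)]
      simp
  have W1 : ∀ z y y', β y = β y' → W y z = W y' z := by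
    intro z y y' h
    rw [hW]
    simp only
    rw [hτ y y' (hβA y y' h), hβA y y' h, h]
  set X := lav ρ β x with hX
  -- replace by averages
  have e1 : ∑ y, ρ y * (τ y * x y * ∑ z, ρ z * (x z * (if A z = A y ∧ β z ≠ β y then 1 else 0))) =
      ∑ y, ρ y * (x y * ∑ z, ρ z * (x z * W z y)) := by
    refine sum_congr rfl fun y _ => ?_
    rw [mul_comm (τ y) (x y), mul_assoc, mul_sum]
    congr 2
    refine sum_congr rfl fun z _ => ?_
    rw [← Wsymm y z, hW]
    ring
  have e2 : ∑ y, ρ y * (x y * ∑ z, ρ z * (x z * W z y)) =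
      ∑ y, ρ y * (x y * ∑ z, ρ z * (X z * W z y)) := by
    refine sum_congr rfl fun y _ => ?_
    rw [hX, lav_sum hρ β x (fun z => W z y) (fun a b h => W1 y a b h)]
  have e3 : ∑ y, ρ y * (x y * ∑ z, ρ z * (X z * W z y)) =
      ∑ y, ρ y * (X y * ∑ z, ρ z * (X z * W z y)) := by
    rw [hX, lav_sum hρ β x (fun y => ∑ z, ρ z * (lav ρ β x z * W z y))]
    intro a b h
    refine sum_congr rfl fun z _ => ?_
    rw [Wsymm z a, Wsymm z b, W1 z a b h]
  rw [e1, e2, e3]
  have e4 : ∑ y, ρ y * (X y * ∑ z, ρ z * (X z * W z y)) ≤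
      ∑ y, ∑ z, ρ y * ρ z * W z y * ((X y ^ 2 + X z ^ 2) / 2) := by
    refine sum_le_sum fun y _ => ?_
    rw [mul_sum, mul_sum]
    refine sum_le_sum fun z _ => ?_
    have h1 : 0 ≤ ρ y * ρ z * W z y := mul_nonneg (mul_nonneg (hρ y) (hρ z)) (W0 z y)
    have h2 : X y * X z ≤ (X y ^ 2 + X z ^ 2) / 2 := by nlinarith [sq_nonneg (X y - X z)]
    calc ρ y * (X y * (ρ z * (X z * W z y))) = ρ y * ρ z * W z y * (X y * X z) := by ring
      _ ≤ _ := mul_le_mul_of_nonneg_left h2 h1
  refine e4.trans (le_of_eq ?_)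
  have e5 : ∑ y, ∑ z, ρ y * ρ z * W z y * ((X y ^ 2 + X z ^ 2) / 2) =
      ∑ y, ∑ z, ρ y * ρ z * W z y * X y ^ 2 := by
    have e6 : ∑ y, ∑ z, ρ y * ρ z * W z y * X z ^ 2 = ∑ y, ∑ z, ρ y * ρ z * W z y * X y ^ 2 := by
      rw [sum_comm]
      refine sum_congr rfl fun z _ => sum_congr rfl fun y _ => ?_
      rw [Wsymm z y]
      ring
    have e7 : ∑ y, ∑ z, ρ y * ρ z * W z y * ((X y ^ 2 + X z ^ 2) / 2) =
        (∑ y, ∑ z, ρ y * ρ z * W z y * X y ^ 2) / 2 + (∑ y, ∑ z, ρ y * ρ z * W z y * X z ^ 2) / 2 := by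
      rw [← add_div, ← sum_add_distrib, sum_div]
      refine sum_congr rfl fun y _ => ?_
      rw [← sum_add_distrib, sum_div]
      exact sum_congr rfl fun z _ => by ring
    rw [e7, e6]
    ring
  rw [e5]
  refine sum_congr rfl fun y _ => ?_
  rw [← sum_sub_distrib, mul_sum, mul_sum]
  refine sum_congr rfl fun z _ => ?_
  rw [← Wsymm y z, hW]
  simp only
  by_cases h1 : β z = β y
  · have h2 := hβA _ _ h1
    rw [if_neg (fun h => h.2 h1), if_pos h2, if_pos h1]
    ring
  · by_cases h2 : A z = A y
    · rw [if_pos ⟨h2, h1⟩, if_pos h2, if_neg h1]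
      ring
    · rw [if_neg (fun h => h2 h.1), if_neg h2, if_neg h1]
      ring

end Local

variable {n : ℕ} {L κ : Type*} [Fintype L] [DecidableEq κ]

variable {π : Fin n → L → ℝ} {o : Fin n → L} {a b : ℕ → (Fin n → L) → κ}
  {T : ℕ → (Fin n → L) → ℝ} {c : ℝ}

theorem mix_mix_le {s k : ℕ} (h : s ≤ k) (z y ω : Fin n → L) :
    mix k z (mix s y ω) = mix k z ω := by
  funext j
  unfold mix
  split_ifs with h1 h2
  · rfl
  · omega
  · rfl

/-- monotonicity of the classes in the level -/
theorem chain (H : Sys π o a b T c) {s k : ℕ} (hs : s < k) (hk : k ≤ n) {ω ω' : Fin n → L}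
    (hf : ∀ j : Fin n, s ≤ j → ω' j = ω j) (h : a s ω' = a s ω) :
    b k ω' = b k ω ∧ a k ω' = a k ω := by
  induction k, hs using Nat.le_induction with
  | base =>
    have e := eq_mix hf
    have h1 : a s (mix s ω' ω) = a s ω := by rw [← e]; exact h
    have h2 := (H.nest ⟨s, by omega⟩ ω' ω).1 h1
    simp only at h2
    rw [← e] at h2
    refine ⟨h2, ?_⟩
    have e2 : ω' = mix (s + 1) ω' ω := eq_mix fun j hj => hf j (by omega)
    have h3 : b (s + 1) (mix (s + 1) ω' ω) = b (s + 1) ω := by rw [← e2]; exact h2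
    have h4 := H.b_a _ _ _ h3
    rwa [← e2] at h4
  | succ k hk' ih =>
    obtain ⟨-, h5⟩ := ih (by omega)
    have hf' : ∀ j : Fin n, k ≤ j → ω' j = ω j := fun j hj => hf j (by omega)
    have e := eq_mix hf'
    have h1 : a k (mix k ω' ω) = a k ω := by rw [← e]; exact h5
    have h2 := (H.nest ⟨k, by omega⟩ ω' ω).1 h1
    simp only at h2
    rw [← e] at h2
    refine ⟨h2, ?_⟩
    have e2 : ω' = mix (k + 1) ω' ω := eq_mix fun j hj => hf j (by omega)
    have h3 : b (k + 1) (mix (k + 1) ω' ω) = b (k + 1) ω := by rw [← e2]; exact h2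
    have h4 := H.b_a _ _ _ h3
    rwa [← e2] at h4

open Classical in
/-- THE ENERGY OF THE CHARGED PAIRS -/
theorem energy_le (H : Sys π o a b T c) (x : (Fin n → L) → ℝ) :
    ∑ k ∈ range n, Ex π (fun ω => T (k + 1) ω * x ω * ∑ z, Pr π z * (x (mix (k + 1) z ω) *
      (if a (k + 1) (mix (k + 1) z ω) = a (k + 1) ω ∧ b (k + 1) (mix (k + 1) z ω) ≠ b (k + 1) ω
        then 1 else 0))) ≤ 4 * (26 + 6 / c) * Ex π (fun ω => x ω ^ 2) := by
  have hπ := H.π_nonneg
  have h1 := H.π_one
  have hc := H.c_pos
  -- the labelling for Carleson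
  set cl : ℕ → (Fin n → L) → κ × (Fin n → L) := fun k ω => (b k ω, mix k o ω) with hcl
  set al : ℕ → (Fin n → L) → ℝ := fun k ω => match k with
    | 0 => 0
    | k + 1 => T (k + 1) ω * (cls π (k + 1) (a (k + 1)) ω - cls π (k + 1) (b (k + 1)) ω) with hal
  have hba : ∀ k ω, cls π k (b k) ω ≤ cls π k (a k) ω := by
    intro k ω
    refine sum_le_sum fun z _ => mul_le_mul_of_nonneg_left ?_ (Pr_nonneg hπ z)
    by_cases h : b k (mix k z ω) = b k ω
    · rw [if_pos h, if_pos (H.b_a _ _ _ h)]
    · rw [if_neg h]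
      split_ifs <;> norm_num
  have al0 : ∀ k ω, 0 ≤ al k ω := by
    intro k ω
    cases k with
    | zero => exact le_rfl
    | succ k => exact mul_nonneg (H.T_nonneg _ _) (sub_nonneg.2 (hba _ _))
  have al1 : ∀ k ω, al k ω ≤ 1 := by
    intro k ω
    cases k with
    | zero => exact zero_le_one
    | succ k =>
      refine mul_le_one₀ (H.T_le _ _) (sub_nonneg.2 (hba _ _)) ?_
      have k1 := cls_le_one hπ h1 (k + 1) (a (k + 1)) ω
      have k2 := cls_nonneg hπ (k + 1) (b (k + 1)) ω
      linarith
  have hfut : ∀ {k : ℕ} {ω ω' : Fin n → L}, mix k o ω = mix k o ω' →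
      ∀ j : Fin n, k ≤ j → ω j = ω' j := by
    intro k ω ω' h j hj
    have := congrFun h j
    unfold mix at this
    rwa [if_neg (by omega), if_neg (by omega)] at this
  -- Carleson
  have key := Carl.carleson (Q := univ) (m := Pr π) (s := x) (cl := cl) (α := al)
    (K := 26 + 6 / c) (fun ω _ => Pr_nonneg hπ ω) (by positivity) (n := n) ?_
    (fun k _ ω _ => al0 k ω) ?_
  · -- conclusion
    refine le_trans ?_ key
    have e0 : ∑ q, Pr π q * ∑ i ∈ range (n + 1), al i q * Carl.av univ (Pr π) (cl i) x (cl i q) ^ 2 =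
        ∑ k ∈ range n, Ex π (fun ω => al (k + 1) ω *
          Carl.av univ (Pr π) (cl (k + 1)) x (cl (k + 1) ω) ^ 2) := by
      unfold Ex
      rw [sum_comm]
      refine sum_congr rfl fun ω _ => ?_
      rw [sum_range_succ', ← mul_sum]
      simp [hal]
    rw [e0]
    refine sum_le_sum fun k _ => ?_
    -- local form
    rw [← Ex_cE π h1 (k + 1)]
    have loc : ∀ ω, cE π (k + 1) (fun ω => T (k + 1) ω * x ω * ∑ z, Pr π z * (x (mix (k + 1) z ω) *
        (if a (k + 1) (mix (k + 1) z ω) = a (k + 1) ω ∧ b (k + 1) (mix (k + 1) z ω) ≠ b (k + 1) ω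
        then 1 else 0))) ω ≤ cE π (k + 1) (fun ω => al (k + 1) ω *
          ((∑ z, Pr π z * (x (mix (k + 1) z ω) * (if b (k + 1) (mix (k + 1) z ω) = b (k + 1) ω
            then 1 else 0))) / cls π (k + 1) (b (k + 1)) ω) ^ 2) ω := by
      intro ω
      have hl := local_energy (ρ := Pr π) (Pr_nonneg hπ) (fun z => a (k + 1) (mix (k + 1) z ω))
        (fun z => b (k + 1) (mix (k + 1) z ω)) (fun z => T (k + 1) (mix (k + 1) z ω))
        (fun z => x (mix (k + 1) z ω)) (fun z => H.T_nonneg _ _) ?_ ?_
      · refine (le_of_eq ?_).trans (hl.trans (le_of_eq ?_))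
        · unfold cE
          refine sum_congr rfl fun y _ => ?_
          simp only [mix_mix]
        · unfold cE
          refine sum_congr rfl fun y _ => ?_
          simp only [hal, mix_mix]
          unfold lav cls
          simp only [mix_mix]
          ring
      · intro y z h
        have := H.b_a (k + 1) (mix (k + 1) y ω) (mix (k + 1) z ω)
        rw [mix_mix] at this
        have e : mix (k + 1) (mix (k + 1) y ω) ω = mix (k + 1) y ω := by
          funext j
          unfold mix
          split_ifs <;> rfl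
        have e' : mix (k + 1) (mix (k + 1) y ω) (mix (k + 1) z ω) = mix (k + 1) y ω := by
          rw [mix_mix, e]
        have := H.b_a (k + 1) (mix (k + 1) y ω) (mix (k + 1) z ω)
        rw [e'] at this
        exact this h
      · intro y z h
        have e : mix (k + 1) (mix (k + 1) y ω) ω = mix (k + 1) y ω := by
          funext j
          unfold mix
          split_ifs <;> rfl
        have e' : mix (k + 1) (mix (k + 1) y ω) (mix (k + 1) z ω) = mix (k + 1) y ω := by
          rw [mix_mix, e]
        have := H.T_class (k + 1) (mix (k + 1) y ω) (mix (k + 1) z ω)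
        rw [e'] at this
        exact this h
    refine (Ex_mono hπ loc).trans (le_of_eq ?_)
    rw [Ex_cE π h1 (k + 1)]
    -- identification of the averages
    unfold Ex
    refine sum_congr rfl fun ω _ => ?_
    rcases (Pr_nonneg hπ ω).eq_or_lt with h0 | h0
    · rw [← h0]
      ring
    · congr 2
      congr 1
      -- the mass of the future
      set Pf := Ex π (fun y => if mix (k + 1) o y = mix (k + 1) o ω then (1 : ℝ) else 0) with hPf
      have hPf0 : 0 < Pf := by
        refine lt_of_lt_of_le h0 ?_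
        have := single_le_sum (f := fun y => Pr π y * (if mix (k + 1) o y = mix (k + 1) o ω
          then (1 : ℝ) else 0)) (fun y _ => mul_nonneg (Pr_nonneg hπ y) (by split_ifs <;> norm_num))
          (mem_univ ω)
        simp only [if_true, mul_one] at this
        exact this
      have gen : ∀ F : (Fin n → L) → ℝ, ∑ y ∈ univ.filter (fun y => cl (k + 1) y = cl (k + 1) ω),
          Pr π y * F y = Pf * ∑ z, Pr π z * (F (mix (k + 1) z ω) *
            (if b (k + 1) (mix (k + 1) z ω) = b (k + 1) ω then 1 else 0)) := by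
        intro F
        have g1 : ∑ y ∈ univ.filter (fun y => cl (k + 1) y = cl (k + 1) ω), Pr π y * F y =
            Ex π (fun y => F y * (if cl (k + 1) y = cl (k + 1) ω then 1 else 0)) := by
          rw [sum_filter]
          unfold Ex
          refine sum_congr rfl fun y _ => ?_
          by_cases g7 : cl (k + 1) y = cl (k + 1) ω
          · rw [if_pos g7]
            beta_reduce
            rw [if_pos g7, mul_one]
          · rw [if_neg g7]
            beta_reduce
            rw [if_neg g7, mul_zero, mul_zero]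
        rw [g1, ← Ex_cE π h1 (k + 1), hPf]
        unfold Ex
        rw [sum_mul]
        refine sum_congr rfl fun y _ => ?_
        rw [mul_assoc]
        congr 1
        beta_reduce
        by_cases g2 : mix (k + 1) o y = mix (k + 1) o ω
        · rw [if_pos g2, one_mul]
          unfold cE
          refine sum_congr rfl fun z _ => ?_
          have g3 : mix (k + 1) z y = mix (k + 1) z ω := by
            rw [← mix_mix (k + 1) z o y, g2, mix_mix]
          rw [g3, hcl]
          beta_reduce
          have g4 : ((b (k + 1) (mix (k + 1) z ω), mix (k + 1) o (mix (k + 1) z ω)) =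
              (b (k + 1) ω, mix (k + 1) o ω)) ↔ b (k + 1) (mix (k + 1) z ω) = b (k + 1) ω := by
            rw [Prod.mk.injEq, mix_mix]
            simp
          by_cases g5 : b (k + 1) (mix (k + 1) z ω) = b (k + 1) ω
          · rw [if_pos g5, if_pos (g4.2 g5)]
          · rw [if_neg g5, if_neg (fun g6 => g5 (g4.1 g6))]
        · rw [if_neg g2, zero_mul]
          unfold cE
          refine sum_eq_zero fun z _ => ?_
          rw [hcl]
          beta_reduce
          rw [if_neg (fun g3 => g2 (by have := (Prod.mk.inj g3).2; rwa [mix_mix] at this))]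
          ring
      beta_reduce
      congr 1
      unfold Carl.av Carl.mu
      have g3 := gen x
      have g4 := gen (fun _ => 1)
      simp only [mul_one, one_mul] at g4
      congr 1
      refine Eq.symm (Eq.trans (congrArg₂ _ g3 g4) ?_)
      unfold cls
      rw [mul_div_mul_left _ _ hPf0.ne']
  · -- nested
    intro k hk ω _ ω' _ h
    rw [hcl] at h ⊢
    simp only [Prod.mk.injEq] at h ⊢
    obtain ⟨h2, h3⟩ := h
    have hf := hfut h3
    have e := eq_mix hf
    have h4 : b k (mix k ω ω') = b k ω' := by rw [← e]; exact h2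
    have h5 := H.b_a _ _ _ h4
    rw [← e] at h5
    refine ⟨(chain H (Nat.lt_succ_self k) hk hf h5).1, ?_⟩
    rw [← mix_mix_le (Nat.le_succ k) o o ω, h3, mix_mix_le (Nat.le_succ k)]
  · -- testing
    intro k hk ω₀ _
    unfold Carl.aa Carl.mu
    set φ : (Fin n → L) → ℝ := fun ω => if cl k ω = cl k ω₀ then 1 else 0 with hφ
    have hφ01 : ∀ ω, φ ω = 0 ∨ φ ω = 1 := fun ω => by
      rw [hφ]
      simp only
      split_ifs <;> simp
    have hφ0 : ∀ ω, 0 ≤ φ ω := fun ω => by rcases hφ01 ω with h | h <;> rw [h] <;> norm_num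
    have e1 : ∑ q ∈ univ.filter (fun q => cl k q = cl k ω₀), Pr π q = Ex π φ := by
      rw [sum_filter, hφ]
      unfold Ex
      refine sum_congr rfl fun ω _ => ?_
      simp only
      split_ifs <;> ring
    have e2 : ∑ q ∈ univ.filter (fun q => cl k q = cl k ω₀), Pr π q * ∑ i ∈ range (k + 1), al i q =
        ∑ i ∈ range (k + 1), Ex π (fun ω => al i ω * φ ω) := by
      rw [sum_filter]
      unfold Ex
      rw [sum_comm]
      refine sum_congr rfl fun ω _ => ?_
      rw [← mul_sum, ← sum_mul, hφ]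
      simp only
      split_ifs <;> ring
    rw [e1, e2]
    cases k with
    | zero =>
      rw [sum_range_one]
      have : Ex π (fun ω => al 0 ω * φ ω) = 0 := by
        unfold Ex
        exact sum_eq_zero fun ω _ => by simp [hal]
      rw [this]
      exact mul_nonneg (by positivity) (Ex_nonneg hπ hφ0)
    | succ k =>
      rw [sum_range_succ', sum_range_succ]
      have h0 : Ex π (fun ω => al 0 ω * φ ω) = 0 := by
        unfold Ex
        exact sum_eq_zero fun ω _ => by simp [hal]
      have hl : Ex π (fun ω => al (k + 1) ω * φ ω) ≤ Ex π φ :=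
        Ex_mono hπ fun ω => mul_le_of_le_one_left (hφ0 ω) (al1 (k + 1) ω)
      have hm := nat_cost H hφ01 (K := k) (by omega) ?_
      · have e3 : ∑ i ∈ range k, Ex π (fun ω => al (i + 1) ω * φ ω) =
            ∑ s ∈ range k, Ex π (fun ω => T (s + 1) ω * φ ω *
              (cls π (s + 1) (a (s + 1)) ω - cls π (s + 1) (b (s + 1)) ω)) := by
          refine sum_congr rfl fun s _ => ?_
          congr 1
          funext ω
          simp only [hal]
          ring
        rw [h0, e3]
        have : (26 + 6 / c) * Ex π φ = (25 + 6 / c) * Ex π φ + Ex π φ := by ring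
        linarith
      · intro s hs z ω h
        have hb := (chain H (show s < k + 1 by omega) hk (ω := ω) (ω' := mix s z ω) (fun j hj => by
          unfold mix
          rw [if_neg (by omega)]) h).1
        rw [hφ]
        simp only
        rw [hcl]
        simp only [Prod.mk.injEq]
        rw [hb, mix_mix_le (by omega : s ≤ k + 1)]

end Vale.P028.RN
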