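import Vale.Agent.P028.MathlibUsed
import Vale.Agent.P028.XF0
attribute [-instance] ProperSMul.toContinuousSMul IsTopologicalTorsor.toContinuousSMul IdemSemiring.toCanonicallyOrderedAdd IdemSemiring.toMulLeftMono IdemSemiring.toMulRightMono AddQuantale.instAddLeftMono AddQuantale.instAddRightMono Quantale.instMulLeftMono Quantale.instMulRightMono FiniteDimensional.rclike_to_real IsScalarTower.complexToReal FiniteDimensional.complexToReal

/-!
# Returns: counting integers composed of few large primes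
-/

namespace Vale.P028.RT

open Finset

theorem sum_smooth (P : Finset ℕ) (hP : ∀ p ∈ P, 16 ≤ p) (S : Finset ℕ)
    (hS : ∀ L ∈ S, 0 < L ∧ ∀ p, p.Prime → p ∣ L → p ∈ P) :
    ∑ L ∈ S, (L : ℝ) ^ (-(1 / 4) : ℝ) ≤ 2 ^ P.card := by
  classical
  let f : ℕ →* ℝ :=
    { toFun := fun n => (n : ℝ) ^ (-(1 / 4) : ℝ)
      map_one' := by simp
      map_mul' := fun a b => by
        push_cast
        exact Real.mul_rpow (Nat.cast_nonneg _) (Nat.cast_nonneg _) }
  have hf : ∀ n, f n = (n : ℝ) ^ (-(1 / 4) : ℝ) := fun n => rfl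
  have hlt : ∀ {p : ℕ}, p.Prime → ‖f p‖ < 1 := by
    intro p hp
    rw [hf, Real.norm_of_nonneg (Real.rpow_nonneg (Nat.cast_nonneg _) _)]
    refine Real.rpow_lt_one_of_one_lt_of_neg ?_ (by norm_num)
    exact_mod_cast hp.one_lt
  have h1 := (EulerProduct.summable_and_hasSum_factoredNumbers_prod_filter_prime_geometric hlt P).2
  have hprod : ∏ p ∈ P with p.Prime, (1 - f p)⁻¹ ≤ 2 ^ P.card := by
    calc ∏ p ∈ P with p.Prime, (1 - f p)⁻¹ ≤ ∏ p ∈ P with p.Prime, (2 : ℝ) := by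
          apply prod_le_prod
          · intro p hp
            have := hlt (mem_filter.1 hp).2
            rw [hf, Real.norm_of_nonneg (Real.rpow_nonneg (Nat.cast_nonneg _) _)] at this
            rw [hf]
            exact inv_nonneg.2 (by linarith)
          · intro p hp
            have h16 : (16 : ℝ) ≤ p := by exact_mod_cast hP p (mem_filter.1 hp).1
            have h2 : f p ≤ 1 / 2 := by
              rw [hf]
              calc (p : ℝ) ^ (-(1 / 4) : ℝ) ≤ (16 : ℝ) ^ (-(1 / 4) : ℝ) :=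
                    Real.rpow_le_rpow_of_nonpos (by norm_num) h16 (by norm_num)
                _ = 1 / 2 := by
                    rw [show (16 : ℝ) = 2 ^ (4 : ℝ) by norm_num, ← Real.rpow_mul (by norm_num)]
                    norm_num
            calc (1 - f p)⁻¹ ≤ (1 / 2 : ℝ)⁻¹ := by
                  apply inv_anti₀ (by norm_num)
                  linarith
              _ = 2 := by norm_num
      _ = 2 ^ (P.filter (fun p => p.Prime)).card := by rw [prod_const]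
      _ ≤ 2 ^ P.card := pow_le_pow_right₀ (by norm_num) (card_filter_le _ _)
  refine le_trans ?_ hprod
  have hmem : ∀ L ∈ S, L ∈ Nat.factoredNumbers P := by
    intro L hL
    obtain ⟨h2, h3⟩ := hS L hL
    exact Nat.mem_factoredNumbers_of_primeFactors_subset h2.ne' fun p hp =>
      h3 p (Nat.prime_of_mem_primeFactors hp) (Nat.dvd_of_mem_primeFactors hp)
  let em : {x // x ∈ S} ↪ Nat.factoredNumbers P := ⟨fun L => ⟨L.1, hmem L.1 L.2⟩, fun a b hab =>
    Subtype.ext (congrArg (fun t : Nat.factoredNumbers P => t.1) hab)⟩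
  have e : ∑ L ∈ S, (L : ℝ) ^ (-(1 / 4) : ℝ) = ∑ L ∈ S.attach.map em, f L := by
    rw [sum_map, ← sum_attach S (fun L => (L : ℝ) ^ (-(1 / 4) : ℝ))]
    exact sum_congr rfl fun x _ => rfl
  rw [e]
  exact sum_le_hasSum _ (fun x _ => Real.rpow_nonneg (Nat.cast_nonneg _) _) h1

/-- the number of large prime factors -/
theorem two_pow_card_le {y B : ℕ} (hB : 0 < B) (hy : 2 ^ 48 ≤ y) :
    (2 : ℝ) ^ (B.primeFactors.filter (fun p => y < p)).card ≤ (B : ℝ) ^ (1 / 48 : ℝ) := by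
  set P := B.primeFactors.filter (fun p => y < p) with hP
  have h1 : (2 ^ 48) ^ P.card ≤ B := by
    calc (2 ^ 48) ^ P.card = ∏ p ∈ P, 2 ^ 48 := by rw [prod_const]
      _ ≤ ∏ p ∈ P, p := prod_le_prod (fun _ _ => Nat.zero_le _) fun p hp =>
          hy.trans (mem_filter.1 hp).2.le
      _ ≤ ∏ p ∈ B.primeFactors, p := by
          refine prod_le_prod_of_subset_of_one_le' (filter_subset _ _) fun p hp _ =>
            (Nat.prime_of_mem_primeFactors hp).pos
      _ ≤ B := Nat.le_of_dvd hB (Nat.prod_primeFactors_dvd B)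
  have h2 : ((2 : ℝ) ^ P.card) ^ (48 : ℕ) ≤ B := by
    rw [← pow_mul, mul_comm, pow_mul]
    exact_mod_cast h1
  have h3 : (0 : ℝ) ≤ (2 : ℝ) ^ P.card := by positivity
  calc (2 : ℝ) ^ P.card = (((2 : ℝ) ^ P.card) ^ (48 : ℕ)) ^ (1 / 48 : ℝ) := by
        rw [← Real.rpow_natCast ((2 : ℝ) ^ P.card) 48, ← Real.rpow_mul h3]
        norm_num
    _ ≤ (B : ℝ) ^ (1 / 48 : ℝ) := Real.rpow_le_rpow (by positivity) h2 (by norm_num)

/-- the number of the integers `L < 2 ^ (e + 1)` composed of large primes dividing `B` -/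
theorem count_smooth {y B e : ℕ} (hB : 0 < B) (hy : 2 ^ 48 ≤ y) (S : Finset ℕ)
    (hS : ∀ L ∈ S, 0 < L ∧ L < 2 ^ (e + 1) ∧ ∀ p, p.Prime → p ∣ L → p ∣ B ∧ y < p) :
    (S.card : ℝ) ≤ (2 : ℝ) ^ (((e : ℝ) + 1) / 4) * (B : ℝ) ^ (1 / 48 : ℝ) := by
  classical
  have h1 := sum_smooth (B.primeFactors.filter (fun p => y < p))
    (fun p hp => by have := (mem_filter.1 hp).2; omega) S (fun L hL => ⟨(hS L hL).1, fun p hp hd => by
      obtain ⟨h2, h3⟩ := (hS L hL).2.2 p hp hd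
      exact mem_filter.2 ⟨Nat.mem_primeFactors.2 ⟨hp, h2, hB.ne'⟩, h3⟩⟩)
  have h2 := two_pow_card_le hB hy
  have h3 : (S.card : ℝ) ≤ (2 : ℝ) ^ (((e : ℝ) + 1) / 4) * ∑ L ∈ S, (L : ℝ) ^ (-(1 / 4) : ℝ) := by
    rw [mul_sum, card_eq_sum_ones]
    push_cast
    refine sum_le_sum fun L hL => ?_
    obtain ⟨h4, h5, -⟩ := hS L hL
    have h6 : (0 : ℝ) < L := by exact_mod_cast h4
    have h7 : (L : ℝ) ≤ (2 : ℝ) ^ ((e : ℝ) + 1) := by
      have : (L : ℝ) ≤ ((2 ^ (e + 1) : ℕ) : ℝ) := by exact_mod_cast h5.le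
      rw [show ((e : ℝ) + 1) = ((e + 1 : ℕ) : ℝ) by push_cast; ring, Real.rpow_natCast]
      exact_mod_cast this
    calc (1 : ℝ) = (L : ℝ) ^ (1 / 4 : ℝ) * (L : ℝ) ^ (-(1 / 4) : ℝ) := by
          rw [← Real.rpow_add h6]; norm_num
      _ ≤ ((2 : ℝ) ^ ((e : ℝ) + 1)) ^ (1 / 4 : ℝ) * (L : ℝ) ^ (-(1 / 4) : ℝ) := by
          refine mul_le_mul_of_nonneg_right ?_ (Real.rpow_nonneg h6.le _)
          exact Real.rpow_le_rpow h6.le h7 (by norm_num)
      _ = _ := by
          rw [← Real.rpow_mul (by norm_num)]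
          congr 2
          ring
  refine h3.trans ?_
  exact mul_le_mul_of_nonneg_left (h1.trans h2) (by positivity)

/-- the weight of a divisor after removing a factor composed of large primes dividing `B` -/
theorem wdv_remove {Q m' L B y : ℕ} (hQ : 0 < Q) (hB : 0 < B) (hy : 2 ^ 48 ≤ y)
    (hL : ∀ p, p.Prime → p ∣ L → p ∣ B ∧ y < p) (hm : m' * L ∣ Q) :
    wdv Q (m' * L) ≤ (B : ℝ) ^ (1 / 48 : ℝ) / L * wdv Q m' := by
  classical
  have hmL : m' * L ≠ 0 := fun h => by rw [h, zero_dvd_iff] at hm; omega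
  have hm0 : m' ≠ 0 := left_ne_zero_of_mul hmL
  have hL0 : L ≠ 0 := right_ne_zero_of_mul hmL
  have hm' : m' ∣ Q := (Dvd.intro L rfl).trans hm
  have hmr : (0 : ℝ) < m' := by exact_mod_cast Nat.pos_of_ne_zero hm0
  have hLr : (0 : ℝ) < L := by exact_mod_cast Nat.pos_of_ne_zero hL0
  unfold wdv
  rw [if_pos hm, if_pos hm']
  set A := Q.primeFactors.filter (fun p => (m' * L).factorization p < Q.factorization p) with hA
  set A' := Q.primeFactors.filter (fun p => m'.factorization p < Q.factorization p) with hA'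
  have hfac : ∀ p, (m' * L).factorization p = m'.factorization p + L.factorization p := by
    intro p
    rw [Nat.factorization_mul hm0 hL0]; rfl
  have hsub : A ⊆ A' := by
    intro p hp
    rw [hA, mem_filter, hfac] at hp
    rw [hA', mem_filter]
    exact ⟨hp.1, by omega⟩
  have hsd : A' \ A ⊆ B.primeFactors.filter (fun p => y < p) := by
    intro p hp
    rw [mem_sdiff, hA, hA', mem_filter, mem_filter, hfac] at hp
    obtain ⟨⟨h1, h2⟩, h3⟩ := hp
    have hpp := Nat.prime_of_mem_primeFactors h1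
    have h4 : L.factorization p ≠ 0 := by
      intro h5
      exact h3 ⟨h1, by omega⟩
    have h5 : p ∣ L := Nat.dvd_of_factorization_pos h4
    obtain ⟨h6, h7⟩ := hL p hpp h5
    exact mem_filter.2 ⟨Nat.mem_primeFactors.2 ⟨hpp, h6, hB.ne'⟩, h7⟩
  have hprod : ∏ p ∈ A', (1 - 1 / (p : ℝ)) =
      (∏ p ∈ A' \ A, (1 - 1 / (p : ℝ))) * ∏ p ∈ A, (1 - 1 / (p : ℝ)) := (prod_sdiff hsub).symm
  have hge : ((B : ℝ) ^ (1 / 48 : ℝ))⁻¹ ≤ ∏ p ∈ A' \ A, (1 - 1 / (p : ℝ)) := by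
    have h1 : (1 / 2 : ℝ) ^ (A' \ A).card ≤ ∏ p ∈ A' \ A, (1 - 1 / (p : ℝ)) := by
      rw [← prod_const]
      refine prod_le_prod (fun _ _ => by norm_num) fun p hp => ?_
      have h2 : (2 : ℝ) ≤ p := by
        have : y < p := (mem_filter.1 (hsd hp)).2
        have : 2 ≤ p := by omega
        exact_mod_cast this
      have h3 : 1 / (p : ℝ) ≤ 1 / 2 := one_div_le_one_div_of_le (by norm_num) h2
      linarith
    refine le_trans ?_ h1
    rw [show (1 / 2 : ℝ) = 2⁻¹ by norm_num, inv_pow]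
    refine inv_anti₀ (by positivity) ?_
    refine le_trans ?_ (two_pow_card_le hB hy)
    exact pow_le_pow_right₀ (by norm_num) (card_le_card hsd)
  have hA0 : 0 ≤ ∏ p ∈ A, (1 - 1 / (p : ℝ)) := prod_nonneg fun p hp =>
    one_sub_inv_prime_nonneg (Nat.prime_of_mem_primeFactors (mem_filter.1 hp).1)
  have hBr : (0 : ℝ) < (B : ℝ) ^ (1 / 48 : ℝ) := Real.rpow_pos_of_pos (by exact_mod_cast hB) _
  rw [hprod]
  push_cast
  have h9 : ∏ p ∈ A, (1 - 1 / (p : ℝ)) ≤ (B : ℝ) ^ (1 / 48 : ℝ) *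
      ((∏ p ∈ A' \ A, (1 - 1 / (p : ℝ))) * ∏ p ∈ A, (1 - 1 / (p : ℝ))) := by
    have h10 : 1 ≤ (B : ℝ) ^ (1 / 48 : ℝ) * ∏ p ∈ A' \ A, (1 - 1 / (p : ℝ)) := by
      have := mul_le_mul_of_nonneg_left hge hBr.le
      rwa [mul_inv_cancel₀ hBr.ne'] at this
    nlinarith
  calc 1 / ((m' : ℝ) * L) * ∏ p ∈ A, (1 - 1 / (p : ℝ))
      ≤ 1 / ((m' : ℝ) * L) * ((B : ℝ) ^ (1 / 48 : ℝ) *
        ((∏ p ∈ A' \ A, (1 - 1 / (p : ℝ))) * ∏ p ∈ A, (1 - 1 / (p : ℝ)))) :=
        mul_le_mul_of_nonneg_left h9 (by positivity)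
    _ = _ := by field_simp

end Vale.P028.RT
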