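import Vale.Agent.P028.MathlibUsed

/-!
# The one-step inequality of the natural statement
-/

namespace Vale.P028.RN

open Finset

variable {Z L κ : Type*} [Fintype Z] [Fintype L] [DecidableEq κ]

/-- mass of the class `v` with the label `m` -/
def CC (ρ : Z → ℝ) (β : Z → L → κ) (m : L) (v : κ) : ℝ := ∑ z, ρ z * (if β z m = v then 1 else 0)

theorem sum_CC (ρ : Z → ℝ) (β : Z → L → κ) (m : L) (V : Finset κ) (hV : ∀ z, β z m ∈ V)
    (F : κ → ℝ) : ∑ z, ρ z * F (β z m) = ∑ v ∈ V, CC ρ β m v * F v := by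
  unfold CC
  simp only [sum_mul]
  rw [sum_comm]
  refine sum_congr rfl fun z _ => ?_
  rw [sum_eq_single (β z m)]
  · simp
  · intro v _ hv
    rw [if_neg (Ne.symm hv)]
    ring
  · intro h
    exact absurd (hV z) h

theorem var_expand (p x : L → ℝ) (y : ℝ) : ∑ m, p m * (x m - y) ^ 2 =
    ∑ m, p m * x m ^ 2 - 2 * y * ∑ m, p m * x m + y ^ 2 * ∑ m, p m := by
  rw [mul_sum, mul_sum, ← sum_sub_distrib, ← sum_add_distrib]
  exact sum_congr rfl fun _ _ => by ring

theorem sum_sq_le_sq {ι : Type*} (s : Finset ι) (x : ι → ℝ) (hx : ∀ i ∈ s, 0 ≤ x i) :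
    ∑ i ∈ s, x i ^ 2 ≤ (∑ i ∈ s, x i) ^ 2 := by
  rw [sq (∑ i ∈ s, x i), sum_mul]
  refine sum_le_sum fun i hi => ?_
  rw [sq]
  exact mul_le_mul_of_nonneg_left (single_le_sum hx hi) (hx i hi)

theorem var_le (p : L → ℝ) (h1 : ∑ m, p m = 1) (x : L → ℝ) (y : ℝ) :
    ∑ m, p m * x m ^ 2 - (∑ m, p m * x m) ^ 2 ≤ ∑ m, p m * (x m - y) ^ 2 := by
  rw [var_expand, h1]
  nlinarith [sq_nonneg (∑ m, p m * x m - y)]

theorem var_eq (p : L → ℝ) (h1 : ∑ m, p m = 1) (x : L → ℝ) :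
    ∑ m, p m * (x m - ∑ k, p k * x k) ^ 2 = ∑ m, p m * x m ^ 2 - (∑ m, p m * x m) ^ 2 := by
  rw [var_expand, h1]
  ring

theorem var_base (p : L → ℝ) (hp : ∀ m, 0 ≤ p m) (h1 : ∑ m, p m = 1) (o : L) (ho : 1 / 2 ≤ p o)
    (x : L → ℝ) :
    ∑ m, p m * (x m - x o) ^ 2 ≤ 6 * (∑ m, p m * x m ^ 2 - (∑ m, p m * x m) ^ 2) := by
  rw [← var_eq p h1 x]
  set y := ∑ k, p k * x k with hy
  have h2 : ∑ m, p m * (x m - x o) ^ 2 ≤
      ∑ m, (2 * (p m * (x m - y) ^ 2) + p m * (2 * (x o - y) ^ 2)) := by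
    refine sum_le_sum fun m _ => ?_
    have h3 : (x m - x o) ^ 2 ≤ 2 * (x m - y) ^ 2 + 2 * (x o - y) ^ 2 := by
      nlinarith [sq_nonneg ((x m - y) + (x o - y))]
    nlinarith [mul_le_mul_of_nonneg_left h3 (hp m)]
  have h4 : p o * (x o - y) ^ 2 ≤ ∑ m, p m * (x m - y) ^ 2 :=
    single_le_sum (f := fun m => p m * (x m - y) ^ 2)
      (fun m _ => mul_nonneg (hp m) (sq_nonneg _)) (mem_univ o)
  rw [sum_add_distrib, ← mul_sum, ← sum_mul, h1] at h2
  nlinarith [sq_nonneg (x o - y)]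

/-- the one-step inequality -/
theorem one_step (ρ : Z → ℝ) (hρ : ∀ z, 0 ≤ ρ z) (hρ1 : ∑ z, ρ z = 1) (p : L → ℝ)
    (hp : ∀ m, 0 ≤ p m) (hp1 : ∑ m, p m = 1) (o : L) (ho : 1 / 2 ≤ p o) (β : Z → L → κ)
    (h : Z → L → ℝ) (h0 : ∀ z m, 0 ≤ h z m)
    (hβ : ∀ z m z' m', β z m = β z' m' → h z m = h z' m') :
    ∑ m, p m * ∑ z, ρ z * (h z m ^ 2 * (CC ρ β m (β z m) - ∑ k, p k * CC ρ β k (β z m))) ≤
      3 * ∑ m, p m * ∑ z, ρ z * (if β z m ≠ β z o then h z o ^ 2 else 0) +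
      12 * (∑ m, p m * (∑ z, ρ z * h z m) ^ 2 - (∑ m, p m * ∑ z, ρ z * h z m) ^ 2) := by
  classical
  set V : Finset κ := univ.image (fun x : Z × L => β x.1 x.2) with hVdef
  have hV : ∀ z m, β z m ∈ V := fun z m => mem_image_of_mem (fun x : Z × L => β x.1 x.2) (mem_univ (z, m))
  -- the class function
  obtain ⟨H, hH, hH0⟩ : ∃ H : κ → ℝ, (∀ z m, H (β z m) = h z m) ∧ ∀ v, 0 ≤ H v := by
    refine ⟨fun v => if hv : ∃ x : Z × L, β x.1 x.2 = v then h hv.choose.1 hv.choose.2 else 0,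
      fun z m => ?_, fun v => ?_⟩
    · have hv : ∃ x : Z × L, β x.1 x.2 = β z m := ⟨(z, m), rfl⟩
      simp only
      rw [dif_pos hv]
      exact hβ _ _ _ _ hv.choose_spec
    · simp only
      split_ifs
      · exact h0 _ _
      · exact le_rfl
  set C := CC ρ β with hC
  have hC0 : ∀ m v, 0 ≤ C m v := fun m v => sum_nonneg fun z _ =>
    mul_nonneg (hρ z) (by split_ifs <;> norm_num)
  -- Step 1
  have e1 : ∀ m, ∑ z, ρ z * (h z m ^ 2 * (C m (β z m) - ∑ k, p k * C k (β z m))) =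
      ∑ v ∈ V, C m v * (H v ^ 2 * (C m v - ∑ k, p k * C k v)) := by
    intro m
    rw [← sum_CC ρ β m V (fun z => hV z m) (fun v => H v ^ 2 * (C m v - ∑ k, p k * C k v))]
    refine sum_congr rfl fun z _ => ?_
    rw [hH]
  have e2 : ∑ m, p m * ∑ z, ρ z * (h z m ^ 2 * (C m (β z m) - ∑ k, p k * C k (β z m))) =
      ∑ v ∈ V, H v ^ 2 * (∑ m, p m * C m v ^ 2 - (∑ m, p m * C m v) ^ 2) := by
    rw [sum_congr rfl fun m _ => by rw [e1 m, mul_sum]]
    rw [sum_comm]
    refine sum_congr rfl fun v _ => ?_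
    have e3 : (∑ m, p m * C m v) ^ 2 = ∑ m, p m * C m v * ∑ k, p k * C k v := by
      rw [← sum_mul, sq]
    rw [e3, ← sum_sub_distrib, mul_sum]
    exact sum_congr rfl fun m _ => by ring
  rw [e2]
  -- the two parts of the difference
  set D1 : L → κ → ℝ := fun m v => ∑ z, ρ z * (if β z o = v then (if β z m ≠ β z o then 1 else 0) else 0)
    with hD1
  set D2 : L → κ → ℝ := fun m v => ∑ z, ρ z * (if β z m = v then (if β z m ≠ β z o then 1 else 0) else 0)
    with hD2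
  have hD10 : ∀ m v, 0 ≤ D1 m v := fun m v => sum_nonneg fun z _ =>
    mul_nonneg (hρ z) (by split_ifs <;> norm_num)
  have hD20 : ∀ m v, 0 ≤ D2 m v := fun m v => sum_nonneg fun z _ =>
    mul_nonneg (hρ z) (by split_ifs <;> norm_num)
  have hD11 : ∀ m v, D1 m v ≤ 1 := by
    intro m v
    rw [← hρ1]
    refine sum_le_sum fun z _ => ?_
    have : ρ z * (if β z o = v then (if β z m ≠ β z o then 1 else 0) else 0) ≤ ρ z * 1 := by
      refine mul_le_mul_of_nonneg_left ?_ (hρ z)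
      split_ifs <;> norm_num
    linarith
  have e4 : ∀ m v, C m v - C o v = D2 m v - D1 m v := by
    intro m v
    rw [hC, hD1, hD2]
    unfold CC
    simp only
    rw [← sum_sub_distrib, ← sum_sub_distrib]
    refine sum_congr rfl fun z _ => ?_
    by_cases g1 : β z m = β z o
    · rw [g1]
      simp
    · rw [← mul_sub, ← mul_sub]
      congr 1
      simp only [if_pos (show β z m ≠ β z o from g1)]
  -- Step 2
  have s2 : ∑ v ∈ V, H v ^ 2 * (∑ m, p m * C m v ^ 2 - (∑ m, p m * C m v) ^ 2) ≤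
      ∑ m, p m * (∑ v ∈ V, H v ^ 2 * D1 m v ^ 2 + ∑ v ∈ V, H v ^ 2 * D2 m v ^ 2) := by
    have s3 : ∀ v ∈ V, H v ^ 2 * (∑ m, p m * C m v ^ 2 - (∑ m, p m * C m v) ^ 2) ≤
        ∑ m, p m * (H v ^ 2 * D1 m v ^ 2 + H v ^ 2 * D2 m v ^ 2) := by
      intro v _
      refine (mul_le_mul_of_nonneg_left (var_le p hp1 (fun m => C m v) (C o v))
        (sq_nonneg _)).trans ?_
      rw [mul_sum]
      refine sum_le_sum fun m _ => ?_
      rw [e4 m v]
      have s4 : (D2 m v - D1 m v) ^ 2 ≤ D1 m v ^ 2 + D2 m v ^ 2 := by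
        nlinarith [mul_nonneg (hD10 m v) (hD20 m v)]
      have s5 := mul_le_mul_of_nonneg_left s4 (mul_nonneg (hp m) (sq_nonneg (H v)))
      nlinarith
    refine (sum_le_sum s3).trans (le_of_eq ?_)
    rw [sum_comm]
    refine sum_congr rfl fun m _ => ?_
    rw [← mul_sum, sum_add_distrib]
  refine s2.trans ?_
  -- N, A, B
  set N : L → ℝ := fun m => ∑ z, ρ z * (if β z m ≠ β z o then h z o ^ 2 else 0) with hN
  set a : L → ℝ := fun m => ∑ z, ρ z * h z m with ha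
  have s6 : ∀ m, ∑ v ∈ V, H v ^ 2 * D1 m v ^ 2 ≤ N m := by
    intro m
    have s7 : ∑ v ∈ V, H v ^ 2 * D1 m v ^ 2 ≤ ∑ v ∈ V, H v ^ 2 * D1 m v := by
      refine sum_le_sum fun v _ => mul_le_mul_of_nonneg_left ?_ (sq_nonneg _)
      nlinarith [hD10 m v, hD11 m v]
    refine s7.trans (le_of_eq ?_)
    simp only [hD1, hN, mul_sum]
    rw [sum_comm]
    refine sum_congr rfl fun z _ => ?_
    rw [sum_eq_single (β z o)]
    · rw [hH]
      by_cases g : β z m ≠ β z o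
      · simp [g]; ring
      · simp [g]
    · intro v _ hv
      rw [if_neg (Ne.symm hv)]
      ring
    · intro hcon
      exact absurd (hV z o) hcon
  have s8 : ∀ m, ∑ v ∈ V, H v ^ 2 * D2 m v ^ 2 ≤ 2 * (a m - a o) ^ 2 + 2 * N m := by
    intro m
    have s9 : ∑ v ∈ V, H v ^ 2 * D2 m v ^ 2 ≤ (∑ v ∈ V, H v * D2 m v) ^ 2 := by
      have := sum_sq_le_sq V (fun v => H v * D2 m v)
        (fun v _ => mul_nonneg (hH0 v) (hD20 m v))
      simpa only [mul_pow] using this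
    have s10 : ∑ v ∈ V, H v * D2 m v = ∑ z, ρ z * (if β z m ≠ β z o then h z m else 0) := by
      simp only [hD2, mul_sum]
      rw [sum_comm]
      refine sum_congr rfl fun z _ => ?_
      rw [sum_eq_single (β z m)]
      · rw [hH]
        by_cases g : β z m ≠ β z o
        · simp [g]; ring
        · simp [g]
      · intro v _ hv
        rw [if_neg (Ne.symm hv)]
        ring
      · intro hcon
        exact absurd (hV z m) hcon
    set B := ∑ z, ρ z * (if β z m ≠ β z o then h z o else 0) with hB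
    have s11 : ∑ z, ρ z * (if β z m ≠ β z o then h z m else 0) = a m - a o + B := by
      rw [ha, hB]
      simp only
      rw [← sum_sub_distrib, ← sum_add_distrib]
      refine sum_congr rfl fun z _ => ?_
      by_cases g : β z m = β z o
      · rw [hβ _ _ _ _ g]
        simp [g]
      · simp [g]
    have s12 : B ^ 2 ≤ N m := by
      have := sum_mul_sq_le_sq_mul_sq univ (fun z => Real.sqrt (ρ z))
        (fun z => Real.sqrt (ρ z) * (if β z m ≠ β z o then h z o else 0))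
      have s13 : ∑ z, Real.sqrt (ρ z) * (Real.sqrt (ρ z) * (if β z m ≠ β z o then h z o else 0)) = B := by
        rw [hB]
        refine sum_congr rfl fun z _ => ?_
        rw [← mul_assoc, Real.mul_self_sqrt (hρ z)]
      rw [s13] at this
      refine this.trans (le_of_eq ?_)
      have s14 : ∑ z, Real.sqrt (ρ z) ^ 2 = 1 := by
        rw [← hρ1]
        exact sum_congr rfl fun z _ => Real.sq_sqrt (hρ z)
      rw [s14, one_mul, hN]
      refine sum_congr rfl fun z _ => ?_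
      rw [mul_pow, Real.sq_sqrt (hρ z)]
      split_ifs <;> ring
    rw [s10, s11] at s9
    nlinarith [sq_nonneg ((a m - a o) - B)]
  calc ∑ m, p m * (∑ v ∈ V, H v ^ 2 * D1 m v ^ 2 + ∑ v ∈ V, H v ^ 2 * D2 m v ^ 2)
      ≤ ∑ m, p m * (N m + (2 * (a m - a o) ^ 2 + 2 * N m)) :=
        sum_le_sum fun m _ => mul_le_mul_of_nonneg_left (add_le_add (s6 m) (s8 m)) (hp m)
    _ = 3 * ∑ m, p m * N m + 2 * ∑ m, p m * (a m - a o) ^ 2 := by
        rw [mul_sum, mul_sum, ← sum_add_distrib]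
        exact sum_congr rfl fun _ _ => by ring
    _ ≤ _ := by
        have := var_base p hp hp1 o ho a
        linarith

end Vale.P028.RN
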