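import Vale.Agent.P028.F53.Prod
import Vale.Agent.P028.F53.OneStep

/-!
# The natural statement with full dependence on the future

`Ω = Fin n → L` with a product measure.  At level `s` the first `s` labels are the outer ones, the
others the future.  `a s` labels the classes at level `s`, `b s` the finer classes before the
merging; both may depend on the future in an arbitrary way.
-/

namespace Vale.P028.RN

open Finset

variable {n : ℕ} {L κ : Type*} [Fintype L] [DecidableEq κ]

/-- natural mass of the class of `ω` (outer strings with the same future) -/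
def cls (π : Fin n → L → ℝ) (s : ℕ) (lab : (Fin n → L) → κ) (ω : Fin n → L) : ℝ :=
  ∑ z, Pr π z * (if lab (mix s z ω) = lab ω then 1 else 0)

/-- the hypotheses -/
structure Sys (π : Fin n → L → ℝ) (o : Fin n → L) (a b : ℕ → (Fin n → L) → κ)
    (T : ℕ → (Fin n → L) → ℝ) (c : ℝ) : Prop where
  π_nonneg : ∀ j m, 0 ≤ π j m
  π_one : ∀ j, ∑ m, π j m = 1
  half : ∀ j, 1 / 2 ≤ π j (o j)
  c_pos : 0 < c
  T_nonneg : ∀ s ω, 0 ≤ T s ω
  T_le : ∀ s ω, T s ω ≤ 1
  T_mono : ∀ s ω, T s ω ≤ T (s + 1) ω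
  T_class : ∀ s z ω, a s (mix s z ω) = a s ω → T s (mix s z ω) = T s ω
  b_a : ∀ s z ω, b s (mix s z ω) = b s ω → a s (mix s z ω) = a s ω
  nest : ∀ (i : Fin n) z ω, a i (mix i z ω) = a i ω ↔ b (i + 1) (mix i z ω) = b (i + 1) ω
  gain : ∀ (i : Fin n) ω, ω i = o i →
    c * ((∑ m, π i m * (if b (i + 1) (Function.update ω i m) ≠ b (i + 1) ω then 1 else 0)) *
      T (i + 1) ω) ≤ T (i + 1) ω - T i ω

variable {π : Fin n → L → ℝ} {o : Fin n → L} {a b : ℕ → (Fin n → L) → κ}
  {T : ℕ → (Fin n → L) → ℝ} {c : ℝ}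

theorem cls_nonneg (hπ : ∀ j m, 0 ≤ π j m) (s : ℕ) (lab : (Fin n → L) → κ) (ω : Fin n → L) :
    0 ≤ cls π s lab ω :=
  sum_nonneg fun z _ => mul_nonneg (Pr_nonneg hπ z) (by split_ifs <;> norm_num)

theorem cls_le_one (hπ : ∀ j m, 0 ≤ π j m) (h1 : ∀ j, ∑ m, π j m = 1) (s : ℕ)
    (lab : (Fin n → L) → κ) (ω : Fin n → L) : cls π s lab ω ≤ 1 := by
  unfold cls
  calc ∑ z, Pr π z * (if lab (mix s z ω) = lab ω then (1 : ℝ) else 0) ≤ ∑ z, Pr π z * 1 :=
        sum_le_sum fun z _ => mul_le_mul_of_nonneg_left (by split_ifs <;> norm_num)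
          (Pr_nonneg hπ z)
    _ = 1 := by simp only [mul_one]; exact Pr_sum π h1

/-- strings `ω'` with the same future as `ω` -/
theorem eq_mix {s : ℕ} {ω ω' : Fin n → L} (h : ∀ j : Fin n, s ≤ j → ω' j = ω j) :
    ω' = mix s ω' ω := by
  funext j
  unfold mix
  split_ifs with h1
  · rfl
  · exact h j (by omega)

/-- the quadratic quantity of the martingale part -/
noncomputable def gq (T : ℕ → (Fin n → L) → ℝ) (φ : (Fin n → L) → ℝ) (s : ℕ) (ω : Fin n → L) : ℝ :=
  Real.sqrt (T s ω) * φ ω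

theorem step_le (H : Sys π o a b T c) (i : Fin n) {φ : (Fin n → L) → ℝ}
    (hφ : ∀ ω, φ ω = 0 ∨ φ ω = 1)
    (hφc : ∀ z ω, a (i + 1) (mix (i + 1) z ω) = a (i + 1) ω → φ (mix (i + 1) z ω) = φ ω) :
    Ex π (fun ω => T i ω * φ ω * cls π i (a i) ω) -
        Ex π (fun ω => T (i + 1) ω * φ ω * cls π (i + 1) (b (i + 1)) ω) ≤
      6 / c * (Ex π (fun ω => φ ω * T (i + 1) ω) - Ex π (fun ω => φ ω * T i ω)) +
      12 * (Ex π (fun ω => cE π i (gq T φ (i + 1)) ω ^ 2) -
        Ex π (fun ω => cE π (i + 1) (gq T φ (i + 1)) ω ^ 2)) := by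
  have hπ := H.π_nonneg
  have h1 := H.π_one
  have hφ0 : ∀ ω, 0 ≤ φ ω := fun ω => by rcases hφ ω with h | h <;> rw [h] <;> norm_num
  have hφ1 : ∀ ω, φ ω ^ 2 = φ ω := fun ω => by rcases hφ ω with h | h <;> rw [h] <;> norm_num
  -- the function `h²`
  have hh : ∀ ω, gq T φ (i + 1) ω ^ 2 = T (i + 1) ω * φ ω := by
    intro ω
    unfold gq
    rw [mul_pow, Real.sq_sqrt (H.T_nonneg _ _), hφ1]
  have hh0 : ∀ ω, 0 ≤ gq T φ (i + 1) ω := fun ω => mul_nonneg (Real.sqrt_nonneg _) (hφ0 ω)
  -- first: `T i ≤ T (i + 1)`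
  have s1 : Ex π (fun ω => T i ω * φ ω * cls π i (a i) ω) -
        Ex π (fun ω => T (i + 1) ω * φ ω * cls π (i + 1) (b (i + 1)) ω) ≤
      Ex π (fun ω => gq T φ (i + 1) ω ^ 2 *
        (cls π i (a i) ω - cls π (i + 1) (b (i + 1)) ω)) := by
    rw [← Ex_sub]
    refine Ex_mono hπ fun ω => ?_
    rw [hh]
    have g1 := mul_le_mul_of_nonneg_right (H.T_mono i ω) (hφ0 ω)
    have g2 := mul_le_mul_of_nonneg_right g1 (cls_nonneg hπ i (a i) ω)
    linarith
  refine s1.trans ?_
  -- decomposition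
  rw [Ex_split π h1 i]
  -- the pointwise one-step inequality
  have s2 : ∀ ω, ∑ m, π i m * cE π i (fun ω => gq T φ (i + 1) ω ^ 2 *
        (cls π i (a i) ω - cls π (i + 1) (b (i + 1)) ω)) (Function.update ω i m) ≤
      3 * ∑ m, π i m * ∑ z, Pr π z * (if b (i + 1) (mix i z (Function.update ω i m)) ≠
          b (i + 1) (mix i z (Function.update ω i (o i))) then
          gq T φ (i + 1) (mix i z (Function.update ω i (o i))) ^ 2 else 0) +
      12 * (∑ m, π i m * (∑ z, Pr π z * gq T φ (i + 1) (mix i z (Function.update ω i m))) ^ 2 -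
        (∑ m, π i m * ∑ z, Pr π z * gq T φ (i + 1) (mix i z (Function.update ω i m))) ^ 2) := by
    intro ω
    have key := one_step (Pr π) (Pr_nonneg hπ) (Pr_sum π h1) (π i) (hπ i) (h1 i) (o i) (H.half i)
      (fun z m => b (i + 1) (mix i z (Function.update ω i m)))
      (fun z m => gq T φ (i + 1) (mix i z (Function.update ω i m)))
      (fun z m => hh0 _) ?_
    · refine le_trans (le_of_eq ?_) key
      refine sum_congr rfl fun m _ => ?_
      congr 1
      unfold cE
      refine sum_congr rfl fun z _ => ?_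
      simp only
      congr 1
      congr 1
      congr 1
      · -- the class of `a i`
        unfold cls CC
        refine sum_congr rfl fun y _ => ?_
        congr 1
        rw [mix_mix]
        have g := H.nest i y (mix i z (Function.update ω i m))
        rw [mix_mix] at g
        by_cases g1 : a i (mix i y (Function.update ω i m)) = a i (mix i z (Function.update ω i m))
        · rw [if_pos g1, if_pos (g.1 g1)]
        · rw [if_neg g1, if_neg (fun g2 => g1 (g.2 g2))]
      · change Ex π (fun y => if b (i + 1) (mix (i + 1) y (mix i z (Function.update ω i m))) =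
          b (i + 1) (mix i z (Function.update ω i m)) then 1 else 0) = _
        rw [Ex_coord π h1 i]
        refine sum_congr rfl fun k _ => ?_
        congr 1
        unfold CC Ex
        refine sum_congr rfl fun y _ => ?_
        congr 1
        have e9 : mix ((i : ℕ) + 1) (Function.update y i k) (mix i z (Function.update ω i m)) =
            mix i y (Function.update ω i k) := by
          rw [mix_succ, mix_update_left, Function.update_self, mix_mix, ← mix_update,
            Function.update_idem]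
        simp only [e9]
    · intro z m z' m' hb
      -- same class, same future
      set w := mix i z (Function.update ω i m) with hw
      set w' := mix i z' (Function.update ω i m') with hw'
      have e : w = mix (i + 1) w w' := by
        refine eq_mix fun j hj => ?_
        rw [hw, hw']
        have hji : j ≠ i := fun h => by rw [h] at hj; omega
        unfold mix
        rw [if_neg (by omega), if_neg (by omega), Function.update_of_ne hji,
          Function.update_of_ne hji]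
      have hb2 : b (i + 1) (mix (i + 1) w w') = b (i + 1) w' := by rw [← e]; exact hb
      have ha := H.b_a (i + 1) w w' hb2
      have hT := H.T_class (i + 1) w w' ha
      have hf := hφc w w' ha
      rw [← e] at hT hf
      unfold gq
      rw [hT, hf]
  refine (Ex_mono hπ s2).trans ?_
  rw [Ex_add, Ex_mul, Ex_mul, Ex_sub]
  -- the two martingale terms
  have s3 : Ex π (fun ω => ∑ m, π i m * (∑ z, Pr π z * gq T φ (i + 1)
      (mix i z (Function.update ω i m))) ^ 2) = Ex π (fun ω => cE π i (gq T φ (i + 1)) ω ^ 2) := by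
    rw [Ex_coord π h1 i (fun ω => cE π i (gq T φ (i + 1)) ω ^ 2)]
    unfold Ex
    simp only [mul_sum]
    rw [sum_comm]
    refine sum_congr rfl fun m _ => sum_congr rfl fun ω _ => ?_
    unfold cE
    ring
  have s4 : Ex π (fun ω => (∑ m, π i m * ∑ z, Pr π z * gq T φ (i + 1)
      (mix i z (Function.update ω i m))) ^ 2) =
      Ex π (fun ω => cE π (i + 1) (gq T φ (i + 1)) ω ^ 2) := by
    congr 1
    funext ω
    rw [cE_succ π h1 i]
    rfl
  rw [s3, s4]
  refine add_le_add ?_ le_rfl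
  -- the gain
  have s5 : Ex π (fun ω => ∑ m, π i m * ∑ z, Pr π z *
      (if b (i + 1) (mix i z (Function.update ω i m)) ≠
          b (i + 1) (mix i z (Function.update ω i (o i))) then
          gq T φ (i + 1) (mix i z (Function.update ω i (o i))) ^ 2 else 0)) ≤
      Ex π (fun ω => 1 / c * cE π i (fun ω => φ ω * (T (i + 1) ω - T i ω))
        (Function.update ω i (o i))) := by
    refine Ex_mono hπ fun ω => ?_
    unfold cE
    simp only [mul_sum]
    rw [sum_comm]
    refine sum_le_sum fun z _ => ?_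
    set w := mix i z (Function.update ω i (o i)) with hw
    have hwi : w i = o i := by
      rw [hw]
      unfold mix
      rw [if_neg (by omega), Function.update_self]
    have hg := H.gain i w hwi
    have hup : ∀ m, Function.update w i m = mix i z (Function.update ω i m) := by
      intro m
      rw [hw, ← mix_update, Function.update_idem]
    have e1 : ∑ m, π i m * (Pr π z * (if b (i + 1) (mix i z (Function.update ω i m)) ≠
          b (i + 1) w then gq T φ (i + 1) w ^ 2 else 0)) =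
        Pr π z * φ w * ((∑ m, π i m * (if b (i + 1) (Function.update w i m) ≠ b (i + 1) w
          then 1 else 0)) * T (i + 1) w) := by
      rw [sum_mul, mul_sum]
      refine sum_congr rfl fun m _ => ?_
      rw [hup, hh]
      split_ifs <;> ring
    rw [e1]
    have hz := mul_nonneg (Pr_nonneg hπ z) (hφ0 w)
    have hg2 : (∑ m, π i m * (if b (i + 1) (Function.update w i m) ≠ b (i + 1) w
          then 1 else 0)) * T (i + 1) w ≤ 1 / c * (T (i + 1) w - T i w) := by
      rw [one_div, ← div_eq_inv_mul, le_div_iff₀ H.c_pos]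
      linarith
    have := mul_le_mul_of_nonneg_left hg2 hz
    refine this.trans (le_of_eq ?_)
    ring
  have s6 : Ex π (fun ω => 1 / c * cE π i (fun ω => φ ω * (T (i + 1) ω - T i ω))
        (Function.update ω i (o i))) ≤
      2 / c * (Ex π (fun ω => φ ω * T (i + 1) ω) - Ex π (fun ω => φ ω * T i ω)) := by
    have g1 : ∀ ω, 1 / c * cE π i (fun ω => φ ω * (T (i + 1) ω - T i ω))
        (Function.update ω i (o i)) ≤ 2 / c * ∑ m, π i m *
          cE π i (fun ω => φ ω * (T (i + 1) ω - T i ω)) (Function.update ω i m) := by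
      intro ω
      have g2 : ∀ ω, 0 ≤ cE π i (fun ω => φ ω * (T (i + 1) ω - T i ω)) ω :=
        cE_nonneg hπ fun ω => mul_nonneg (hφ0 ω) (sub_nonneg.2 (H.T_mono i ω))
      have g3 : π i (o i) * cE π i (fun ω => φ ω * (T (i + 1) ω - T i ω))
          (Function.update ω i (o i)) ≤ ∑ m, π i m *
          cE π i (fun ω => φ ω * (T (i + 1) ω - T i ω)) (Function.update ω i m) :=
        single_le_sum (f := fun m => π i m *
          cE π i (fun ω => φ ω * (T (i + 1) ω - T i ω)) (Function.update ω i m))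
          (fun m _ => mul_nonneg (hπ i m) (g2 _)) (mem_univ (o i))
      have g4 := H.half i
      have g5 : cE π i (fun ω => φ ω * (T (i + 1) ω - T i ω)) (Function.update ω i (o i)) ≤
          2 * ∑ m, π i m *
          cE π i (fun ω => φ ω * (T (i + 1) ω - T i ω)) (Function.update ω i m) := by
        nlinarith [g2 (Function.update ω i (o i))]
      have g6 := mul_le_mul_of_nonneg_left g5 (by have := H.c_pos; positivity : 0 ≤ 1 / c)
      refine g6.trans (le_of_eq ?_)
      ring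
    refine (Ex_mono hπ g1).trans (le_of_eq ?_)
    rw [Ex_mul, ← Ex_split π h1 i, ← Ex_sub]
    congr 2
    funext ω
    ring
  have s7 := s5.trans s6
  have s8 := mul_le_mul_of_nonneg_left s7 (by norm_num : (0 : ℝ) ≤ 3)
  refine s8.trans (le_of_eq ?_)
  ring

/-- the martingale sum -/
theorem mart_le (H : Sys π o a b T c) {φ : (Fin n → L) → ℝ} (hφ : ∀ ω, φ ω = 0 ∨ φ ω = 1) (K : ℕ) :
    ∑ s ∈ range K, (Ex π (fun ω => cE π s (gq T φ (s + 1)) ω ^ 2) -
        Ex π (fun ω => cE π (s + 1) (gq T φ (s + 1)) ω ^ 2)) ≤ 2 * Ex π φ := by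
  have hπ := H.π_nonneg
  have h1 := H.π_one
  have hφ0 : ∀ ω, 0 ≤ φ ω := fun ω => by rcases hφ ω with h | h <;> rw [h] <;> norm_num
  have hφ1 : ∀ ω, φ ω ≤ 1 := fun ω => by rcases hφ ω with h | h <;> rw [h] <;> norm_num
  have hs1 : ∀ s ω, Real.sqrt (T s ω) ≤ 1 := fun s ω => Real.sqrt_le_one.2 (H.T_le s ω)
  have g0 : ∀ s ω, 0 ≤ gq T φ s ω := fun s ω => mul_nonneg (Real.sqrt_nonneg _) (hφ0 ω)
  have g1 : ∀ s ω, gq T φ s ω ≤ 1 := fun s ω => mul_le_one₀ (hs1 s ω) (hφ0 ω) (hφ1 ω)
  have g2 : ∀ s ω, gq T φ s ω ≤ φ ω := fun s ω => mul_le_of_le_one_left (hφ0 ω) (hs1 s ω)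
  have g3 : ∀ s ω, gq T φ s ω ≤ gq T φ (s + 1) ω := fun s ω =>
    mul_le_mul_of_nonneg_right (Real.sqrt_le_sqrt (H.T_mono s ω)) (hφ0 ω)
  -- one step
  have step : ∀ s, Ex π (fun ω => cE π s (gq T φ (s + 1)) ω ^ 2) -
      Ex π (fun ω => cE π s (gq T φ s) ω ^ 2) ≤ 2 * (Ex π (gq T φ (s + 1)) - Ex π (gq T φ s)) := by
    intro s
    rw [← Ex_sub]
    have g4 : ∀ ω, cE π s (gq T φ (s + 1)) ω ^ 2 - cE π s (gq T φ s) ω ^ 2 ≤
        2 * (cE π s (gq T φ (s + 1)) ω - cE π s (gq T φ s) ω) := by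
      intro ω
      have k1 := cE_mono hπ (s := s) (g3 s) ω
      have k2 := cE_le_one hπ h1 (s := s) (g1 s) ω
      have k3 := cE_le_one hπ h1 (s := s) (g1 (s + 1)) ω
      nlinarith
    refine (Ex_mono hπ g4).trans (le_of_eq ?_)
    rw [Ex_mul, Ex_sub, Ex_cE π h1, Ex_cE π h1]
  have key : ∀ K, ∑ s ∈ range K, (Ex π (fun ω => cE π s (gq T φ (s + 1)) ω ^ 2) -
        Ex π (fun ω => cE π (s + 1) (gq T φ (s + 1)) ω ^ 2)) ≤
      Ex π (fun ω => cE π 0 (gq T φ 0) ω ^ 2) - Ex π (fun ω => cE π K (gq T φ K) ω ^ 2) +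
        2 * (Ex π (gq T φ K) - Ex π (gq T φ 0)) := by
    intro K
    induction K with
    | zero => simp
    | succ K ih =>
      rw [sum_range_succ]
      have := step K
      linarith
  refine (key K).trans ?_
  have k1 : Ex π (fun ω => cE π 0 (gq T φ 0) ω ^ 2) ≤ Ex π (gq T φ 0) := by
    refine Ex_mono hπ fun ω => ?_
    rw [cE_zero π h1]
    nlinarith [g0 0 ω, g1 0 ω]
  have k2 : 0 ≤ Ex π (fun ω => cE π K (gq T φ K) ω ^ 2) := Ex_nonneg hπ fun ω => sq_nonneg _
  have k3 : Ex π (gq T φ K) ≤ Ex π φ := Ex_mono hπ (g2 K)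
  have k4 : 0 ≤ Ex π (gq T φ 0) := Ex_nonneg hπ (g0 0)
  linarith

/-- THE NATURAL STATEMENT -/
theorem nat_cost (H : Sys π o a b T c) {φ : (Fin n → L) → ℝ} (hφ : ∀ ω, φ ω = 0 ∨ φ ω = 1)
    {K : ℕ} (hK : K ≤ n) (hφc : ∀ s ≤ K, ∀ z ω, a s (mix s z ω) = a s ω → φ (mix s z ω) = φ ω) :
    ∑ s ∈ range K, Ex π (fun ω => T (s + 1) ω * φ ω *
      (cls π (s + 1) (a (s + 1)) ω - cls π (s + 1) (b (s + 1)) ω)) ≤ (25 + 6 / c) * Ex π φ := by
  have hπ := H.π_nonneg
  have h1 := H.π_one
  have hφ0 : ∀ ω, 0 ≤ φ ω := fun ω => by rcases hφ ω with h | h <;> rw [h] <;> norm_num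
  have hc := H.c_pos
  set Q : ℕ → ℝ := fun s => Ex π (fun ω => T s ω * φ ω * cls π s (a s) ω) with hQ
  set Q' : ℕ → ℝ := fun s => Ex π (fun ω => T s ω * φ ω * cls π s (b s) ω) with hQ'
  set U : ℕ → ℝ := fun s => Ex π (fun ω => φ ω * T s ω) with hU
  set M : ℕ → ℝ := fun s => Ex π (fun ω => cE π s (gq T φ (s + 1)) ω ^ 2) -
        Ex π (fun ω => cE π (s + 1) (gq T φ (s + 1)) ω ^ 2) with hM
  have e1 : ∀ s, Ex π (fun ω => T (s + 1) ω * φ ω *
      (cls π (s + 1) (a (s + 1)) ω - cls π (s + 1) (b (s + 1)) ω)) = Q (s + 1) - Q' (s + 1) := by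
    intro s
    rw [hQ, hQ']
    simp only
    rw [← Ex_sub]
    congr 1
    funext ω
    ring
  have step : ∀ s ∈ range K, Q s - Q' (s + 1) ≤ 6 / c * (U (s + 1) - U s) + 12 * M s := by
    intro s hs
    have hs' : s < n := lt_of_lt_of_le (mem_range.1 hs) hK
    have := step_le H ⟨s, hs'⟩ hφ (fun z ω h => hφc (s + 1) (mem_range.1 hs) z ω h)
    exact this
  have h2 := sum_le_sum step
  rw [sum_add_distrib, ← mul_sum, ← mul_sum, sum_range_sub] at h2
  have h3 : ∑ s ∈ range K, M s ≤ 2 * Ex π φ := mart_le H hφ K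
  have h4 : ∑ s ∈ range K, (Q (s + 1) - Q' (s + 1)) = Q K - Q 0 + ∑ s ∈ range K, (Q s - Q' (s + 1)) := by
    rw [← sum_range_sub, ← sum_add_distrib]
    exact sum_congr rfl fun _ _ => by ring
  rw [sum_congr rfl fun s _ => e1 s, h4]
  have h5 : Q K ≤ Ex π φ := by
    refine Ex_mono hπ fun ω => ?_
    have k1 := mul_le_of_le_one_left (hφ0 ω) (H.T_le K ω)
    have k2 := mul_nonneg (H.T_nonneg K ω) (hφ0 ω)
    exact (mul_le_of_le_one_right k2 (cls_le_one hπ h1 K (a K) ω)).trans k1
  have h6 : 0 ≤ Q 0 := Ex_nonneg hπ fun ω =>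
    mul_nonneg (mul_nonneg (H.T_nonneg 0 ω) (hφ0 ω)) (cls_nonneg hπ 0 (a 0) ω)
  have h7 : U K ≤ Ex π φ := Ex_mono hπ fun ω => mul_le_of_le_one_right (hφ0 ω) (H.T_le K ω)
  have h8 : 0 ≤ U 0 := Ex_nonneg hπ fun ω => mul_nonneg (hφ0 ω) (H.T_nonneg 0 ω)
  have h9 : 6 / c * (U K - U 0) ≤ 6 / c * Ex π φ :=
    mul_le_mul_of_nonneg_left (by linarith) (by positivity)
  have : (25 + 6 / c) * Ex π φ = Ex π φ + 6 / c * Ex π φ + 12 * (2 * Ex π φ) := by ring
  rw [this]
  linarith

end Vale.P028.RN
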